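import Vale.Agent.P237.Petty.Cor.Low.Field

/-!
# P237: the mean of the loss in the orders from twenty-five to two hundred

Against the circle of order `k + 4` the loss is at most its mass over `k + 5`.
-/

namespace Vale.Agent.P237.Petty.Cor.Low

open MeasureTheory Set intervalIntegral Vale.Agent.P100.Bernstein
open Ident (half)
open Huge (moment moment_step moment_zero integrable_moment)

/-- The margin of the mean, as a polynomial in `M`. -/
def eMean : Expr :=
  let z := Expr.frac 1 115 * eM - 1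
  let d1 := eM + 1
  let d2 := d1 * (eM + 3)
  let d3 := d2 * (eM + 5)
  let d5 := d3 * (eM - 2) * (eM - 4)
  d5 - (eM - 1) * ((.frac 68 10000 + .frac (-62) 10000 * z) * d5 +
    (.frac (-683) 1000 + .frac 127 1000 * z) * ((eM + 3) * (eM + 5) * (eM - 2) * (eM - 4)) +
    3 * (.frac 3641 100 + .frac 712 25 * z) * ((eM + 5) * (eM - 2) * (eM - 4)) +
    15 * .frac (-3047) 100 * ((eM - 2) * (eM - 4)) +
    105 * .frac 475 4 * (eM - 4) + 945 * .frac 404 25)

theorem cert_mean : certify false eMean [⟨28, 202, 1⟩] (.split 0 (.split 0 (.split 0 .leaf .leaf)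
    (.split 0 .leaf .leaf)) (.split 0 (.split 0 .leaf .leaf) (.split 0 .leaf .leaf))) = true := by
  decide +kernel

/-- The loss against the circle, with nonnegative powers. -/
theorem lossR_mul (M : ℝ) (k : ℕ) {s : ℝ} (hk : k ≠ 0) :
    arc s ^ (k + 4) * lossR M s (arc s) =
      lossCoef M (68 / 10000) (-62 / 10000) * (arc s ^ (k + 4) * s ^ (2 * 0)) +
      lossCoef M (-683 / 1000) (127 / 1000) * (arc s ^ (k + 4) * s ^ (2 * 1)) +
      lossCoef M (3641 / 100) (712 / 25) * (arc s ^ (k + 4) * s ^ (2 * 2)) +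
      -3047 / 100 * (arc s ^ (k + 4) * s ^ (2 * 3)) +
      475 / 4 * (arc s ^ (k + 2) * s ^ (2 * 4)) + 404 / 25 * (arc s ^ k * s ^ (2 * 5)) := by
  rcases eq_or_ne (arc s) 0 with h | h
  · simp [h, zero_pow hk, zero_pow (show k + 4 ≠ 0 by omega), zero_pow (show k + 2 ≠ 0 by omega)]
  · simp only [lossR, pow_add]
    field_simp
    ring

theorem continuous_loss (M : ℝ) {k : ℕ} (hk : k ≠ 0) :
    Continuous fun s => arc s ^ (k + 4) * lossR M s (arc s) := by
  rw [funext fun s => lossR_mul M k (s := s) hk]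
  have := continuous_arc
  fun_prop

/-- The mean of the loss. -/
theorem loss_le {k : ℕ} {M : ℝ} (hM : M = (k : ℝ) + 6) (hk : 22 ≤ k) (hk' : k ≤ 196) :
    (M - 1) * (∫ s in (0 : ℝ)..1, arc s ^ (k + 4) * lossR M s (arc s)) ≤ half (k + 4) := by
  have hk0 : k ≠ 0 := by omega
  have a22 : (22 : ℝ) ≤ k := by exact_mod_cast hk
  have a196 : (k : ℝ) ≤ 196 := by exact_mod_cast hk'
  have hI : (∫ s in (0 : ℝ)..1, arc s ^ (k + 4) * lossR M s (arc s)) =
      lossCoef M (68 / 10000) (-62 / 10000) * moment (k + 4) 0 +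
      lossCoef M (-683 / 1000) (127 / 1000) * moment (k + 4) 1 +
      lossCoef M (3641 / 100) (712 / 25) * moment (k + 4) 2 +
      -3047 / 100 * moment (k + 4) 3 + 475 / 4 * moment (k + 2) 4 + 404 / 25 * moment k 5 := by
    rw [intervalIntegral.integral_congr fun s _ => lossR_mul M k (s := s) hk0]
    have hi := fun (a : ℝ) (j i : ℕ) => (integrable_moment j i 0 1).const_mul a
    rw [intervalIntegral.integral_add ((((hi _ _ _).add (hi _ _ _)).add (hi _ _ _)).add
        (hi _ _ _) |>.add (hi _ _ _)) (hi _ _ _),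
      intervalIntegral.integral_add ((((hi _ _ _).add (hi _ _ _)).add (hi _ _ _)).add (hi _ _ _))
        (hi _ _ _),
      intervalIntegral.integral_add (((hi _ _ _).add (hi _ _ _)).add (hi _ _ _)) (hi _ _ _),
      intervalIntegral.integral_add ((hi _ _ _).add (hi _ _ _)) (hi _ _ _),
      intervalIntegral.integral_add (hi _ _ _) (hi _ _ _)]
    simp only [intervalIntegral.integral_const_mul, moment]
  have a1 := moment_step (k + 4) 0
  have a2 := moment_step (k + 4) 1
  have a3 := moment_step (k + 4) 2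
  have b1 := moment_step (k + 2) 0
  have b2 := moment_step (k + 2) 1
  have b3 := moment_step (k + 2) 2
  have b4 := moment_step (k + 2) 3
  have c1 := moment_step k 0
  have c2 := moment_step k 1
  have c3 := moment_step k 2
  have c4 := moment_step k 3
  have c5 := moment_step k 4
  have s1 := Ident.half_step (k + 2)
  have s2 := Ident.half_step k
  rw [hI]
  simp only [moment_zero, show k + 2 + 2 = k + 4 from rfl, show 0 + 1 = 1 from rfl,
    show 1 + 1 = 2 from rfl, show 2 + 1 = 3 from rfl, show 3 + 1 = 4 from rfl,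
    show 4 + 1 = 5 from rfl] at a1 a2 a3 b1 b2 b3 b4 c1 c2 c3 c4 c5 s1 s2 ⊢
  push_cast at a1 a2 a3 b1 b2 b3 b4 c1 c2 c3 c4 c5 s1 s2
  rw [show (k : ℝ) = M - 6 by linarith] at a1 a2 a3 b1 b2 b3 b4 c1 c2 c3 c4 c5 s1 s2
  set h := half (k + 4)
  have e1 : (M + 1) * moment (k + 4) 1 = h := by linear_combination a1
  have e2 : (M + 1) * (M + 3) * moment (k + 4) 2 = 3 * h := by
    linear_combination (M + 1) * a2 + 3 * e1
  have e3 : (M + 1) * (M + 3) * (M + 5) * moment (k + 4) 3 = 15 * h := by
    linear_combination (M + 1) * (M + 3) * a3 + 5 * e2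
  have g1 : (M - 2) * half (k + 2) = (M - 1) * h := by linear_combination -s1
  have g0 : (M - 2) * (M - 4) * half k = (M - 1) * (M - 3) * h := by
    linear_combination -(M - 2) * s2 + (M - 3) * g1
  have n1 : (M - 2) * moment (k + 2) 1 = h := by
    refine mul_left_cancel₀ (show M - 1 ≠ 0 by linarith) ?_
    linear_combination (M - 2) * b1 + g1
  have n2 : (M - 2) * (M + 1) * moment (k + 2) 2 = 3 * h := by
    linear_combination (M - 2) * b2 + 3 * n1
  have n3 : (M - 2) * (M + 1) * (M + 3) * moment (k + 2) 3 = 15 * h := by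
    linear_combination (M - 2) * (M + 1) * b3 + 5 * n2
  have n4 : (M + 1) * (M + 3) * (M + 5) * (M - 2) * moment (k + 2) 4 = 105 * h := by
    linear_combination (M - 2) * (M + 1) * (M + 3) * b4 + 7 * n3
  have m1 : (M - 2) * (M - 4) * moment k 1 = (M - 1) * h := by
    refine mul_left_cancel₀ (show M - 3 ≠ 0 by linarith) ?_
    linear_combination (M - 2) * (M - 4) * c1 + g0
  have m2 : (M - 2) * (M - 4) * moment k 2 = 3 * h := by
    refine mul_left_cancel₀ (show M - 1 ≠ 0 by linarith) ?_
    linear_combination (M - 2) * (M - 4) * c2 + 3 * m1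
  have m3 : (M - 2) * (M - 4) * (M + 1) * moment k 3 = 15 * h := by
    linear_combination (M - 2) * (M - 4) * c3 + 5 * m2
  have m4 : (M - 2) * (M - 4) * (M + 1) * (M + 3) * moment k 4 = 105 * h := by
    linear_combination (M - 2) * (M - 4) * (M + 1) * c4 + 7 * m3
  have m5 : (M + 1) * (M + 3) * (M + 5) * (M - 2) * (M - 4) * moment k 5 = 945 * h := by
    linear_combination (M - 2) * (M - 4) * (M + 1) * (M + 3) * c5 + 9 * m4
  have hh : 0 < h := Ident.half_pos _
  have hc := nonneg_of_certify cert_mean (x := [M])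
    (by simp [InBox]; constructor <;> linarith)
  simp [eMean, eM, Expr.eval] at hc
  have hden : 0 < (M + 1) * (M + 3) * (M + 5) * (M - 2) * (M - 4) :=
    mul_pos (mul_pos (mul_pos (mul_pos (by linarith) (by linarith)) (by linarith)) (by linarith))
      (by linarith)
  refine sub_nonneg.1 (nonneg_of_mul_nonneg_right (le_trans (mul_nonneg hh.le (sub_nonneg.2 hc))
    (le_of_eq ?_)) hden)
  simp only [lossCoef]
  linear_combination (M - 1) *
    (((-683 / 1000) + 127 / 1000 * (1 / 115 * M - 1)) * ((M + 3) * (M + 5) * (M - 2) * (M - 4)) * e1 +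
      (3641 / 100 + 712 / 25 * (1 / 115 * M - 1)) * ((M + 5) * (M - 2) * (M - 4)) * e2 +
      -3047 / 100 * ((M - 2) * (M - 4)) * e3 + 475 / 4 * (M - 4) * n4 + 404 / 25 * m5)

end Vale.Agent.P237.Petty.Cor.Low
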