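import Vale.Agent.P237.Petty.Cor.Low.Core
import Vale.Agent.P237.Petty.Cor.Low.Mean
import Vale.Agent.P237.Petty.Cor.Huge.Main

/-!
# P237: the slope-free field above logarithm one, from order twenty-five on

With `M = p + 3`, the test `s - g (t - s)`, the weight one and the potential
`-(1 - s ^ 2) (K (s) d + b d ^ 2)` the integrand per unit of mass is above the common part minus
`lossR`, a function of `s` of nonnegative mean once `ell` is at least one.
-/

namespace Vale.Agent.P237.Petty.Cor.Low

open MeasureTheory Set intervalIntegral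
open Ident (half)

variable {p : ℕ}

/-- The lower bound in the abscissa of the circle. -/
noncomputable def psi (p : ℕ) (M ell s : ℝ) : ℝ :=
  (nuC M + 1) * (1 - ((p : ℝ) + 4) * s ^ 2) + ell / ((p : ℝ) + 2) - lossR M s (arc s)

/-- The potential. -/
theorem pot_low (M : ℝ) :
    Pot (fun s t => (1 - s ^ 2) *
        -((cK M + 61 / 100 * s ^ 2) * (t - s) + bC M * (t - s) ^ 2))
      (fun s t => -2 * s * -((cK M + 61 / 100 * s ^ 2) * (t - s) + bC M * (t - s) ^ 2) +
        (1 - s ^ 2) * (-(61 / 50 * s * (t - s)) + (kPot M s + 2 * bC M * (t - s))))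
      fun s t => (1 - s ^ 2) * -(kPot M s + 2 * bC M * (t - s)) :=
  Pot.arcSq (((((Pot.const (cK M)).add ((Pot.abscissa.pow 2).smul (61 / 100))).mul
      (Pot.height.sub Pot.abscissa)).add (((Pot.height.sub Pot.abscissa).pow 2).smul (bC M))).smul
      (-1) |>.congr (fun s t => by ring)
      (fun s _ t _ => by simp only [kPot]; push_cast; ring)
      fun s _ t _ => by simp only [kPot]; push_cast; ring)

/-- The integrand per unit of mass is above `psi`. -/
theorem psi_le_perMass {M : ℝ} (hM : M = (p : ℝ) + 3) (h28 : M ∈ Icc (28 : ℝ) 202) {ell top : ℝ}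
    {s t a r q : ℝ} (h : FlatState p top s t a r q) :
    psi p M ell s ≤ perMass p (shadowC M * ((p : ℝ) + 1) / Ident.b0 p) (nuC M) 1 ell
      (fun s t => s + gC M * (s - t)) (fun _ _ => 1 + gC M) (fun _ _ => -gC M) (fun _ => 1)
      (fun s t => (1 - s ^ 2) * -((cK M + 61 / 100 * s ^ 2) * (t - s) + bC M * (t - s) ^ 2))
      (fun s t => -2 * s * -((cK M + 61 / 100 * s ^ 2) * (t - s) + bC M * (t - s) ^ 2) +
        (1 - s ^ 2) * (-(61 / 50 * s * (t - s)) + (kPot M s + 2 * bC M * (t - s))))
      (fun s t => (1 - s ^ 2) * -(kPot M s + 2 * bC M * (t - s))) s t a r := by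
  have hM0 : 0 < M := by linarith [h28.1]
  have hs := h.state.s_mem
  have ht := h.state.t_mem
  have hr := h.state.rate_pos
  have hc := h.state.arc_pos'
  have hb := Ident.b0_pos p
  have hc2 : arc s ^ 2 = 1 - s ^ 2 := Real.sq_sqrt (by nlinarith [hs.1, hs.2])
  have hB : 0 ≤ shadowC M := by unfold shadowC nuC; linarith
  have hA : aC M (arc s) * -Real.log r ≤
      shadowC M * ((p : ℝ) + 1) / Ident.b0 p * Ident.b0 p * (1 / a - 1 / arc s) := by
    refine le_trans (le_of_eq ?_) (h.shadow_ge (div_nonneg (mul_nonneg hB (by positivity)) hb.le))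
    rw [aC]
    field_simp
  have hp : (p : ℝ) = M - 3 := by linarith
  have hg : gC M * M = 36 / 25 := div_mul_cancel₀ _ hM0.ne'
  have hK : M * cK M = M + 1 + 2 * nuC M * (-11 / 25) + 1 / 2 := by
    rw [cK]
    field_simp
    ring
  have e : nuC M * fisherTest p (fun s t => s + gC M * (s - t)) (fun _ _ => 1 + gC M)
        (fun _ _ => -gC M) s t r - 1 * (((p : ℝ) + 4) * (s * t) - 1) +
      nullPart p (fun s t => (1 - s ^ 2) *
          -((cK M + 61 / 100 * s ^ 2) * (t - s) + bC M * (t - s) ^ 2))
        (fun s t => -2 * s * -((cK M + 61 / 100 * s ^ 2) * (t - s) + bC M * (t - s) ^ 2) +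
          (1 - s ^ 2) * (-(61 / 50 * s * (t - s)) + (kPot M s + 2 * bC M * (t - s))))
        (fun s t => (1 - s ^ 2) * -(kPot M s + 2 * bC M * (t - s))) s t r =
      pC M s t * (r - 1) - qC M s (arc s) t * (1 / r - 1) + baseC M s t +
        (nuC M + 1) * (1 - ((p : ℝ) + 4) * s ^ 2) := by
    rw [nullPart_arcSq (Qs := fun s t => -(61 / 50 * s * (t - s)) + (kPot M s + 2 * bC M * (t - s)))
      (Qt := fun s t => -(kPot M s + 2 * bC M * (t - s))) hs, fisherTest, hp]
    simp only [qC, pC, baseC, kPot, hc2]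
    linear_combination (s * (t - s)) * hK + (2 * nuC M * (s * (t - s))) * hg
  have hroom := h.room
  rw [← hc2, millsDen, ← hM] at hroom
  have := core_ge h28 hs ht hc hc2 hr hroom
  rw [perMass_eq, psi]
  linarith

/-- The large regime above logarithm one, in the orders from twenty-five to one hundred and
ninety-nine. -/
theorem pointwiseR_low (hp : 25 ≤ p) (hp' : p ≤ 199) : PointwiseR p 1 := fun ell hl => by
  obtain ⟨k, rfl⟩ : ∃ k, p = k + 3 := ⟨p - 3, by omega⟩
  obtain ⟨M, hM⟩ : ∃ M : ℝ, M = ((k + 3 : ℕ) : ℝ) + 3 := ⟨_, rfl⟩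
  have hMk : M = (k : ℝ) + 6 := by rw [hM]; push_cast; ring
  have hk : (22 : ℝ) ≤ k := by exact_mod_cast (show 22 ≤ k by omega)
  have hk' : (k : ℝ) ≤ 196 := by exact_mod_cast (show k ≤ 196 by omega)
  have h28 : M ∈ Icc (28 : ℝ) 202 := ⟨by linarith, by linarith⟩
  have hgam : 0 < shadowC M * (((k + 3 : ℕ) : ℝ) + 1) / Ident.b0 (k + 3) :=
    div_pos (mul_pos (by unfold shadowC nuC; linarith) (by positivity)) (Ident.b0_pos _)
  refine ⟨_, nuC M, 1, ell, ell, hgam, by unfold nuC; linarith, one_pos, le_rfl, le_rfl,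
    flatField_of_point_mean (ω := fun _ => 1) (ψ := psi (k + 3) M ell) (axTest_affine _)
      continuous_const (by simp only [mul_one]; rfl) (pot_low M) (by simp) ?_ ?_
      fun s t a r q h => psi_le_perMass hM h28 h⟩
  all_goals have hc := continuous_loss M (show k ≠ 0 by omega)
  · refine Continuous.continuousOn ?_
    simp only [psi, mul_sub]
    exact ((continuous_arc.pow _).mul (by fun_prop)).sub hc
  · have e : ∀ s : ℝ, arc s ^ (k + 3 + 1) * psi (k + 3) M ell s =
        ((nuC M + 1 + ell / (((k + 3 : ℕ) : ℝ) + 2)) * arc s ^ (k + 4) -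
          (nuC M + 1) * (((k + 3 : ℕ) : ℝ) + 4) * (arc s ^ (k + 4) * s ^ 2)) -
        arc s ^ (k + 4) * lossR M s (arc s) := fun s => by
      simp only [psi]
      ring
    have i1 : IntervalIntegrable (fun s => arc s ^ (k + 4)) volume 0 1 :=
      (continuous_arc.pow _).intervalIntegrable _ _
    have i2 : IntervalIntegrable (fun s => arc s ^ (k + 4) * s ^ 2) volume 0 1 :=
      ((continuous_arc.pow _).mul (continuous_pow 2)).intervalIntegrable _ _
    have em := integral_arc_pow_mul_sq (k + 3)
    have eh : ∫ s in (0 : ℝ)..1, arc s ^ (k + 4) = half (k + 4) := rfl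
    rw [intervalIntegral.integral_congr fun s _ => e s,
      intervalIntegral.integral_sub ((i1.const_mul _).sub (i2.const_mul _))
        (hc.intervalIntegrable _ _),
      intervalIntegral.integral_sub (i1.const_mul _) (i2.const_mul _),
      intervalIntegral.integral_const_mul, intervalIntegral.integral_const_mul,
      mul_assoc (nuC M + 1), em, eh]
    have hI := loss_le hMk (by omega) (by omega)
    push_cast
    rw [show (k : ℝ) + 3 + 2 = M - 1 by linarith]
    have h1 := mul_le_mul_of_nonneg_right hl (Ident.half_pos (k + 4)).le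
    have h2 : (∫ s in (0 : ℝ)..1, arc s ^ (k + 4) * lossR M s (arc s)) ≤
        ell / (M - 1) * half (k + 4) := by
      rw [div_mul_eq_mul_div, le_div_iff₀ (by linarith)]
      linarith
    linarith

/-- The large regime above logarithm one, in every order from twenty-five on. -/
theorem pointwiseR_one (hp : 25 ≤ p) : PointwiseR p 1 := by
  rcases le_total p 199 with h | h
  · exact pointwiseR_low hp h
  · rcases h.eq_or_lt with h' | h'
    · exact pointwiseR_low hp h'.ge
    · exact Huge.pointwiseR_huge h'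

end Vale.Agent.P237.Petty.Cor.Low
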