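import Vale.Agent.P237.Petty.Cor.Huge.Near
import Mathlib.Analysis.Convex.Deriv

/-!
# P237: the gauge of the speed with letters for the three coefficients

`P (r - 1) - A log r - Q (1 / r - 1)` is above minus a rational function of `P`, `A` and `Q` at
speeds from one half on, and below one half above its values at the two ends.
-/

namespace Vale.Agent.P237.Petty.Cor.Low

open Set

variable {P A Q X r : ℝ}

/-- Above one the reciprocal term costs twice the gauge. -/
theorem up_reduce (hQ : 0 ≤ Q) (hr : 1 ≤ r) :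
    (P - Q) * (r - 1) - (A - 2 * Q) * Real.log r ≤
      P * (r - 1) + A * -Real.log r - Q * (1 / r - 1) := by
  have hr0 : 0 < r := by linarith
  have h := Real.self_le_sinh_iff.2 (Real.log_nonneg hr)
  rw [Real.sinh_log hr0] at h
  have e : (r - r⁻¹) / 2 = (r - 1) - (1 / r - 1 + (r - 1)) / 2 := by
    rw [one_div]
    ring
  have := mul_le_mul_of_nonneg_left (e ▸ h) hQ
  linarith

/-- The loss above one, with the rational bound of the logarithm. -/
theorem up_ge {D m : ℝ} (hD : 0 < D) (hm : 0 < m) (hr : 0 < r)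
    (hX : (m - D) ^ 2 * (m + 2 * D) ≤ D * (2 * D + 4 * m) * X) :
    -X ≤ D * (r - 1) - m * Real.log r := by
  have h := gauge_linear_le (mu := D) (lam := m - D) (r := 1 / r) hD (by linarith) (by positivity)
  have h1 := gauge_linear_le (mu := m) (lam := D - m) hm (by linarith) hr
  have hl := mul_le_mul_of_nonneg_left (log_le_pade (div_pos hm hD)) hm.le
  rw [show m + (D - m) = D by ring, Real.log_div hD.ne' hm.ne'] at h1
  rw [Real.log_div hm.ne' hD.ne'] at hl
  have e : m * ((m / D - 1) * (5 + m / D) / (2 + 4 * (m / D))) - (m - D) =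
      (m - D) ^ 2 * (m + 2 * D) / (D * (2 * D + 4 * m)) := by
    field_simp
    ring
  have h2 : (m - D) ^ 2 * (m + 2 * D) / (D * (2 * D + 4 * m)) ≤ X := by
    rw [div_le_iff₀ (by positivity)]
    linarith
  linarith

/-- The loss above one, with half the square over the smaller coefficient. -/
theorem near_up {D m : ℝ} (hD : 0 < D) (hm : 0 < m) (hr : 1 ≤ r)
    (hX : (m - D) ^ 2 ≤ 2 * D * X) : -X ≤ D * (r - 1) - m * Real.log r := by
  have hX0 : 0 ≤ X := nonneg_of_mul_nonneg_right ((sq_nonneg _).trans hX) (by linarith)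
  have hr0 : 0 < r := by linarith
  rcases le_total m D with h | h
  · have h1 := mul_le_mul_of_nonneg_left (Real.log_le_sub_one_of_pos hr0) hm.le
    have h2 := mul_le_mul_of_nonneg_right h (sub_nonneg.2 hr)
    linarith
  · have h1 := gauge_linear_min_le (k := D) (mu := m) (lam := D - m) hD h (by linarith) hr0
    have h2 : (D - m) ^ 2 / (2 * D) ≤ X := by
      rw [div_le_iff₀ (by linarith)]
      nlinarith [hX]
    linarith

/-- The loss from one half to one. -/
theorem mid_ge (hQ : 0 ≤ Q) (hm : 0 < A - 3 * Q) (hr : 1 / 2 ≤ r) (hr1 : r ≤ 1)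
    (hX : (P - A + Q) ^ 2 ≤ 2 * (A - 3 * Q) * X) :
    -X ≤ P * (r - 1) + A * -Real.log r - Q * (1 / r - 1) := by
  have hr0 : 0 < r := by linarith
  have hX0 : 0 ≤ X := nonneg_of_mul_nonneg_right ((sq_nonneg _).trans hX) (by linarith)
  have hg := mul_le_mul_of_nonneg_left (Huge.recip_gauge_le hr) hQ
  rcases le_total (P - A + Q) 0 with h | h
  · have h1 := mul_le_mul_of_nonneg_left (Real.log_le_sub_one_of_pos hr0) hm.le
    have h2 := mul_nonneg_of_nonpos_of_nonpos h (sub_nonpos.2 hr1)
    linarith
  · have h1 := gauge_linear_min_le (k := A - 3 * Q) (mu := A - 3 * Q) (lam := P - A + Q) hm le_rfl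
      (by linarith) hr0
    have h2 : (P - A + Q) ^ 2 / (2 * (A - 3 * Q)) ≤ X := by
      rw [div_le_iff₀ (by linarith)]
      linarith
    linarith

/-- The function of the reciprocal of the speed below one half. -/
noncomputable def slow (P A Q v : ℝ) : ℝ := P * (1 / v - 1) + A * Real.log v - Q * (v - 1)

theorem slow_concave (hP : P ≤ A) (hA : 0 ≤ A) : ConcaveOn ℝ (Ici 2) (slow P A Q) := by
  have hd : ∀ v : ℝ, 0 < v → HasDerivAt (slow P A Q) (A / v - P / v ^ 2 - Q) v := fun v hv => by
    refine ((((hasDerivAt_const v (1 : ℝ)).div (hasDerivAt_id v) hv.ne').sub_const 1).const_mul P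
      |>.add ((Real.hasDerivAt_log hv.ne').const_mul A) |>.sub
        (((hasDerivAt_id v).sub_const 1).const_mul Q)).congr_deriv ?_
    simp only [id]
    field_simp
    ring
  refine AntitoneOn.concaveOn_of_deriv (convex_Ici 2) (fun v hv =>
    (hd v (lt_of_lt_of_le two_pos hv)).continuousAt.continuousWithinAt) ?_ ?_
  · rw [interior_Ici]
    exact fun v hv => (hd v (two_pos.trans hv)).differentiableAt.differentiableWithinAt
  · rw [interior_Ici]
    intro x hx y hy hxy
    simp only [mem_Ioi] at hx hy
    rw [(hd x (by linarith)).deriv, (hd y (by linarith)).deriv]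
    have h0 : 0 ≤ A * (x * y) - P * (x + y) := by
      rcases le_total P 0 with h | h
      · have := mul_nonneg hA (show 0 ≤ x * y by positivity)
        have := mul_nonpos_of_nonpos_of_nonneg h (show 0 ≤ x + y by linarith)
        linarith
      · have h1 : x + y ≤ x * y := by nlinarith
        nlinarith [mul_le_mul hP h1 (by linarith) hA]
    have e : A / x - P / x ^ 2 - Q - (A / y - P / y ^ 2 - Q) =
        (y - x) * (A * (x * y) - P * (x + y)) / (x ^ 2 * y ^ 2) := by
      field_simp
      ring
    have : 0 ≤ (y - x) * (A * (x * y) - P * (x + y)) / (x ^ 2 * y ^ 2) :=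
      div_nonneg (mul_nonneg (by linarith) h0) (by positivity)
    linarith

/-- Below one half the values at two, at six and at the end of the room suffice. -/
theorem slow_ge {v x : ℝ} (hP : P ≤ A) (hA : 0 ≤ A) (hv : 2 ≤ v) (hvx : v ≤ 6 * x)
    (h2 : -X ≤ slow P A Q 2) (h6 : -X ≤ slow P A Q 6)
    (hend : 1 ≤ x → -X ≤ slow P A Q (6 * x)) : -X ≤ slow P A Q v := by
  have hc := slow_concave (Q := Q) hP hA
  rcases le_total v 6 with h | h
  · refine le_trans (le_min h2 h6) (hc.ge_on_segment (show (2 : ℝ) ≤ 2 from le_rfl)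
      (show (2 : ℝ) ≤ 6 by norm_num) ?_)
    rw [segment_eq_Icc (by norm_num)]
    exact ⟨hv, h⟩
  · refine le_trans (le_min h6 (hend (by linarith))) (hc.ge_on_segment
      (show (2 : ℝ) ≤ 6 by norm_num) (show (2 : ℝ) ≤ 6 * x by linarith) ?_)
    rw [segment_eq_Icc (by linarith)]
    exact ⟨h, hvx⟩

/-- Rational lower bounds of the two logarithms. -/
theorem log_two_six : 693 / 1000 ≤ Real.log 2 ∧ 17917 / 10000 ≤ Real.log 6 := by
  have h2 := Real.log_two_gt_d9
  refine ⟨by norm_num at h2 ⊢; linarith, ?_⟩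
  have a := pade_le_log (show (0 : ℝ) < 9 / 8 by norm_num)
  have b := pade_le_log (show (0 : ℝ) < 6 / 5 by norm_num)
  have c := pade_le_log (show (0 : ℝ) < 10 / 9 by norm_num)
  have e : Real.log 6 = Real.log 2 + (Real.log 2 +
      (Real.log (9 / 8) + (Real.log (6 / 5) + Real.log (10 / 9)))) := by
    rw [← Real.log_mul (by norm_num) (by norm_num), ← Real.log_mul (by norm_num) (by norm_num),
      ← Real.log_mul (by norm_num) (by norm_num), ← Real.log_mul (by norm_num) (by norm_num)]
    norm_num
  norm_num at a b c h2 e ⊢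
  linarith

end Vale.Agent.P237.Petty.Cor.Low
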