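import Vale.Agent.P237.Petty.Cor.Low.Exprs
import Vale.Agent.P237.Petty.Cor.Few.Mask

/-!
# P237: the certificates at speeds below one half

The Bernstein test on bisections of `[28, 202] × [0, 1] × [0, 1]`, evaluated by the kernel.
-/

namespace Vale.Agent.P237.Petty.Cor.Low

open Vale.Agent.P100.Bernstein

/-- The certificate: the potential grows. -/
theorem cert_slope : certify false eQ₀ [⟨28, 202, 1⟩, ⟨0, 1, 1⟩, ⟨0, 1, 1⟩] (
  .leaf) = true := by
  refine Few.certify_of_quick ?_
  decide +kernel

/-- The certificate: the coefficient of the speed is above the potential. -/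
theorem cert_gap : certify false (eP - eQ) [⟨28, 202, 1⟩, ⟨0, 1, 1⟩, ⟨0, 1, 1⟩] (
  .leaf) = true := by
  refine Few.certify_of_quick ?_
  decide +kernel

/-- The certificate: the coefficient of the gauge is positive. -/
theorem cert_mu : certify false (eA - 3 * eQ * eC) [⟨28, 202, 1⟩, ⟨0, 1, 1⟩, ⟨0, 1, 1⟩] (
  .leaf) = true := by
  refine Few.certify_of_quick ?_
  decide +kernel

/-- The certificate: the speed one half. -/
theorem cert_two : certify false eTwo [⟨28, 202, 1⟩, ⟨0, 1, 1⟩, ⟨0, 1, 1⟩] (
  .split 2 .leaf .leaf) = true := by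
  refine Few.certify_of_quick ?_
  decide +kernel

/-- The certificate: the speed one sixth. -/
theorem cert_six : certify false eSix [⟨28, 202, 1⟩, ⟨0, 1, 1⟩, ⟨0, 1, 1⟩] (
  .leaf) = true := by
  refine Few.certify_of_quick ?_
  decide +kernel

/-- The certificate: the end of the room. -/
theorem cert_end : certify false eEnd [⟨28, 202, 1⟩, ⟨0, 1, 1⟩, ⟨0, 1, 1⟩] (
  .split 1 (.split 2 (.split 1 .leaf (.split 0 (.split 0 (.split 0 (.split 1 (.split 0 .leaf .leaf)
  .leaf) .leaf) .leaf) .leaf)) (.split 2 .leaf (.split 2 .leaf (.split 2 .leaf .leaf)))) .leaf) = true := by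
  refine Few.certify_of_quick ?_
  decide +kernel

end Vale.Agent.P237.Petty.Cor.Low
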