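import Vale.Agent.P237.Petty.Cor.Low.Exprs
import Vale.Agent.P237.Petty.Cor.Few.Mask

/-!
# P237: the certificate at speeds from one half to one

The Bernstein test on bisections of `[28, 202] × [0, 1] × [0, 1]`, evaluated by the kernel.
-/

namespace Vale.Agent.P237.Petty.Cor.Low

open Vale.Agent.P100.Bernstein

/-- The certificate: speeds from one half to one. -/
theorem cert_mid : certify false eMid [⟨28, 202, 1⟩, ⟨0, 1, 1⟩, ⟨0, 1, 1⟩] (
  .split 2 (.split 1 (.split 1 (.split 2 (.split 2 (.split 1 (.split 2 (.split 1 (.split 2 .leaf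
  (.split 1 .leaf .leaf)) .leaf) (.split 1 (.split 1 .leaf (.split 0 .leaf (.split 2 (.split 2
  .leaf .leaf) (.split 2 .leaf .leaf)))) .leaf)) .leaf) (.split 1 (.split 2 (.split 1 (.split 2
  .leaf .leaf) (.split 2 .leaf .leaf)) (.split 1 .leaf .leaf)) (.split 0 .leaf .leaf))) (.split 2
  (.split 1 .leaf .leaf) .leaf)) .leaf) .leaf) .leaf) = true := by
  refine Few.certify_of_quick ?_
  decide +kernel

end Vale.Agent.P237.Petty.Cor.Low
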