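import Vale.Agent.P237.Petty.Cor.Low.Exprs
import Vale.Agent.P237.Petty.Cor.Few.Mask

/-!
# P237: the certificate at speeds above one

The Bernstein test on bisections of `[28, 202] × [0, 1] × [0, 1]`, evaluated by the kernel.
-/

namespace Vale.Agent.P237.Petty.Cor.Low

open Vale.Agent.P100.Bernstein

/-- The certificate: speeds above one, near the centre. -/
theorem cert_near : certify false eNear [⟨28, 202, 1⟩, ⟨0, 1, 8⟩, ⟨0, 1, 1⟩] (
  .split 2 (.split 2 (.split 2 (.split 2 (.split 1 (.split 2 .leaf (.split 1 .leaf .leaf)) .leaf)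
  (.split 1 (.split 1 .leaf (.split 0 .leaf (.split 2 (.split 2 .leaf .leaf) (.split 1 .leaf
  .leaf)))) .leaf)) (.split 2 (.split 1 .leaf (.split 1 .leaf .leaf)) (.split 1 .leaf (.split 1
  .leaf .leaf)))) .leaf) .leaf) = true := by
  refine Few.certify_of_quick ?_
  decide +kernel

/-- The certificate: speeds above one. -/
theorem cert_up : certify false eUp [⟨28, 202, 1⟩, ⟨1, 8, 8⟩, ⟨0, 1, 1⟩] (
  .split 1 (.split 1 (.split 2 (.split 2 .leaf .leaf) (.split 1 .leaf .leaf)) .leaf) .leaf) = true := by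
  refine Few.certify_of_quick ?_
  decide +kernel

end Vale.Agent.P237.Petty.Cor.Low
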