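import Vale.Agent.P237.Petty.Cor.Low.Exprs
import Vale.Agent.P237.Petty.Cor.Huge.Moments

/-!
# P237: the slope-free field in the orders from twenty-five to two hundred

The parameters as functions of `M = p + 3`, and the cleared polynomials as multiples of the terms
of the integrand.
-/

namespace Vale.Agent.P237.Petty.Cor.Low

open Vale.Agent.P100.Bernstein

/-- The weight of the Fisher excess. -/
noncomputable def nuC (M : ℝ) : ℝ := 6 / 5 + 3 / 50 * M

/-- The quadratic coefficient of the potential. -/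
noncomputable def bC (M : ℝ) : ℝ := 1 / 25 + 1 / 400 * M

/-- The weight of the shadow. -/
noncomputable def shadowC (M : ℝ) : ℝ := 2 * nuC M + 123 / 125

/-- The parameter of the test. -/
noncomputable def gC (M : ℝ) : ℝ := 36 / 25 / M

/-- The linear coefficient of the potential at the centre. -/
noncomputable def cK (M : ℝ) : ℝ := 1 + (1 + 2 * nuC M * (-11 / 25) + 1 / 2) / M

/-- The linear coefficient of the potential. -/
noncomputable def kPot (M s : ℝ) : ℝ := cK M + 61 / 100 * s ^ 2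

/-- The coefficient of the speed. -/
noncomputable def pC (M s t : ℝ) : ℝ :=
  2 * nuC M * (1 + gC M) * (1 - t * (s - gC M * (t - s)))

/-- The coefficient of the reciprocal of the speed. -/
noncomputable def qC (M s c t : ℝ) : ℝ := (kPot M s + 2 * bC M * (t - s)) * c ^ 2

/-- The coefficient of the logarithm of the speed. -/
noncomputable def aC (M c : ℝ) : ℝ := shadowC M / c

/-- The terms in the displacement. -/
noncomputable def baseC (M s t : ℝ) : ℝ :=
  (bC M * M * s + nuC M * (2 * gC M - (M - 1) * gC M ^ 2)) * (t - s) ^ 2 +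
    s * (1 / 2 + (M + 2) * (61 / 100) * s ^ 2 - 61 / 50) * (t - s)

/-- The affine coefficients of the loss. -/
noncomputable def lossCoef (M a b : ℝ) : ℝ := a + b * (1 / 115 * M - 1)

/-- The bound of the loss. -/
noncomputable def lossR (M s c : ℝ) : ℝ :=
  lossCoef M (68 / 10000) (-62 / 10000) + lossCoef M (-683 / 1000) (127 / 1000) * s ^ 2 +
    lossCoef M (3641 / 100) (712 / 25) * s ^ 4 + -3047 / 100 * s ^ 6 +
    475 / 4 * (s ^ 8 / c ^ 2) + 404 / 25 * (s ^ 10 / c ^ 4)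

/-- What the gauge may lose. -/
noncomputable def roomC (M s c t : ℝ) : ℝ := baseC M s t + lossR M s c

/-- The upper bound of the room above six. -/
noncomputable def xC (M s c t : ℝ) : ℝ :=
  (1 - t) * (M * s + (M + 7569 / 100) / (87 / 5)) / (6 * c ^ 2)

variable {M w t : ℝ}

theorem eval_terms (hM : M ≠ 0) (hC : 1 - w ^ 2 ≠ 0) :
    eP.eval [M, w, t] = M ^ 2 * (1 + w ^ 2) ^ 4 * pC M (2 * w / (1 + w ^ 2)) t ∧
    eQ.eval [M, w, t] = M ^ 2 * (1 + w ^ 2) ^ 4 *
      qC M (2 * w / (1 + w ^ 2)) ((1 - w ^ 2) / (1 + w ^ 2)) t ∧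
    eA.eval [M, w, t] = M ^ 2 * (1 + w ^ 2) ^ 4 * (1 - w ^ 2) *
      aC M ((1 - w ^ 2) / (1 + w ^ 2)) := by
  have hN : (1 : ℝ) + w ^ 2 ≠ 0 := by positivity
  refine ⟨?_, ?_, ?_⟩
  · simp [eP, eD, eNu, eM, eH, eN, eS, Expr.eval, pC, gC, nuC]
    field_simp
  · simp [eQ, eQ₀, eK, eD, eb, eNu, eM, eH, eN, eC, eS, Expr.eval, qC, kPot, cK, bC, nuC]
    field_simp
    ring
  · simp [eA, eB, eNu, eM, eN, Expr.eval, aC, shadowC, nuC]
    field_simp

theorem eval_W (hM : M ≠ 0) (hC : 1 - w ^ 2 ≠ 0) :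
    eW.eval [M, w, t] = M ^ 2 * (1 + w ^ 2) ^ 6 * (1 - w ^ 2) ^ 4 *
      roomC M (2 * w / (1 + w ^ 2)) ((1 - w ^ 2) / (1 + w ^ 2)) t := by
  have hN : (1 : ℝ) + w ^ 2 ≠ 0 := by positivity
  simp [eW, eR, eZ, eD, eb, eNu, eM, eH, eN, eC, eS, Expr.eval, roomC, baseC, lossR, lossCoef, bC,
    nuC, gC]
  field_simp
  ring

theorem eval_x (hC : 1 - w ^ 2 ≠ 0) :
    eXn.eval [M, w, t] / eXd.eval [M, w, t] =
      xC M (2 * w / (1 + w ^ 2)) ((1 - w ^ 2) / (1 + w ^ 2)) t := by
  have hN : (1 : ℝ) + w ^ 2 ≠ 0 := by positivity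
  simp [eXn, eXd, eM, eH, eN, eC, eS, Expr.eval, xC]
  field_simp
  ring

end Vale.Agent.P237.Petty.Cor.Low
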