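import Vale.Agent.P237.Petty.Cor.Low.CertUp
import Vale.Agent.P237.Petty.Cor.Low.CertMid
import Vale.Agent.P237.Petty.Cor.Low.CertEnd
import Vale.Agent.P237.Petty.Cor.Low.Field
import Vale.Agent.P237.Petty.Cor.Low.Scalar

/-!
# P237: the integrand from the certificates

On `28 ≤ M ≤ 202` the gauge of the speed with the terms in the displacement is above minus
`lossR`.
-/

namespace Vale.Agent.P237.Petty.Cor.Low

open Set Vale.Agent.P100.Bernstein

variable {M w t s c r : ℝ}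

/-- Membership of a point in the box of the certificates. -/
theorem inBox_of {lo hi : ℤ} {den : ℕ} (hM : M ∈ Icc (28 : ℝ) 202) (h0 : (lo : ℝ) ≤ den * w)
    (h1 : (den : ℝ) * w ≤ hi) (ht : t ∈ Icc (0 : ℝ) 1) :
    InBox [⟨28, 202, 1⟩, ⟨lo, hi, den⟩, ⟨0, 1, 1⟩] [M, w, t] := by
  simp [InBox, hM.1, hM.2, h0, h1, ht.1, ht.2]

/-- The coefficients are in range. -/
theorem coef_facts (hM : M ∈ Icc (28 : ℝ) 202) (hs : s ∈ Ioo (0 : ℝ) 1) (hc : 0 < c)
    (ht : t ∈ Ioo (0 : ℝ) 1) (hc2 : c ^ 2 = 1 - s ^ 2) :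
    0 ≤ qC M s c t ∧ 0 < aC M c - 3 * qC M s c t ∧ pC M s t ≤ aC M c := by
  have hM0 : 0 < M := by linarith [hM.1]
  have hnu : 288 / 100 ≤ nuC M := by unfold nuC; linarith [hM.1]
  have hnu1 : nuC M ≤ 1332 / 100 := by unfold nuC; linarith [hM.2]
  have hb : 11 / 100 ≤ bC M ∧ bC M ≤ 545 / 1000 := by
    unfold bC
    exact ⟨by linarith [hM.1], by linarith [hM.2]⟩
  have hg : 0 ≤ gC M ∧ gC M ≤ 52 / 1000 := by
    unfold gC
    exact ⟨by positivity, (div_le_iff₀ hM0).2 (by linarith [hM.1])⟩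
  have hK : cK M = 1 + (444 / 1000 - 528 / 10000 * M) / M := by
    unfold cK nuC
    ring
  have hKv : 947 / 1000 ≤ cK M ∧ cK M ≤ 964 / 1000 := by
    rw [hK]
    constructor
    · have : (-53 / 1000 : ℝ) ≤ (444 / 1000 - 528 / 10000 * M) / M := by
        rw [le_div_iff₀ hM0]
        linarith [hM.1]
      linarith
    · have : (444 / 1000 - 528 / 10000 * M) / M ≤ -36 / 1000 := by
        rw [div_le_iff₀ hM0]
        linarith [hM.1]
      linarith
  have hd : -1 ≤ t - s ∧ t - s ≤ 1 - s := ⟨by linarith [ht.1, hs.2], by linarith [ht.2]⟩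
  have hc1 : c ≤ 1 := by nlinarith [sq_nonneg s, sq_nonneg (c - 1)]
  have hq0 : 0 ≤ kPot M s + 2 * bC M * (t - s) := by
    unfold kPot
    nlinarith [mul_le_mul_of_nonneg_left (show -s ≤ t - s by linarith [ht.1]) (show 0 ≤ bC M by
      linarith [hb.1]), mul_le_mul_of_nonneg_right hb.2 hs.1.le, sq_nonneg (s - 89 / 100)]
  have hq1 : kPot M s + 2 * bC M * (t - s) ≤ 161 / 100 + 2 * bC M := by
    unfold kPot
    nlinarith [mul_le_mul_of_nonneg_left hd.2 (show 0 ≤ bC M by linarith [hb.1]),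
      mul_nonneg (show 0 ≤ bC M by linarith [hb.1]) hs.1.le, pow_le_one₀ hs.1.le hs.2.le (n := 2)]
  have hQ1 : qC M s c t ≤ 161 / 100 + 2 * bC M :=
    (mul_le_of_le_one_right hq0 (pow_le_one₀ hc.le hc1)).trans hq1
  have hA : shadowC M ≤ aC M c :=
    le_div_self (by unfold shadowC; linarith) hc hc1
  refine ⟨mul_nonneg hq0 (sq_nonneg c), ?_, ?_⟩
  · have : 3 * (161 / 100 + 2 * bC M) < shadowC M := by
      unfold shadowC bC nuC
      linarith [hM.1]
    linarith
  · refine le_trans ?_ hA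
    have h1 : 1 - t * (s - gC M * (t - s)) ≤ 1 + gC M := by
      nlinarith [mul_nonneg ht.1.le hs.1.le, mul_le_mul_of_nonneg_left
        (show t * (t - s) ≤ 1 by nlinarith [ht.1, ht.2, hs.1]) hg.1]
    have h2 := mul_le_mul_of_nonneg_left h1
      (show 0 ≤ 2 * nuC M * (1 + gC M) by
        exact mul_nonneg (by linarith) (by linarith [hg.1]))
    have h3 : nuC M * gC M * (2 + gC M) ≤ 46 / 100 := by
      have e : nuC M * gC M = 216 / 2500 + 216 / 125 / M := by
        unfold nuC gC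
        field_simp
        ring
      have : 216 / 125 / M ≤ 62 / 1000 := (div_le_iff₀ hM0).2 (by linarith [hM.1])
      rw [e]
      nlinarith [mul_le_mul (show 216 / 2500 + 216 / 125 / M ≤ 149 / 1000 by linarith)
        (show 2 + gC M ≤ 2052 / 1000 by linarith [hg.2]) (by linarith [hg.1]) (by norm_num)]
    unfold pC shadowC
    nlinarith [h2, h3]

variable {T N C P Q A X : ℝ}

/-- The cleared inequality at a fixed speed below one half. -/
theorem clear_slow (hT : 0 < T) (hN : 0 < N) (hC : 0 < C) (hA : 0 ≤ A) {v L : ℝ}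
    (hL : L ≤ Real.log v)
    (h : 0 ≤ N ^ 2 * C ^ 3 * ((1 / v - 1) * (T * P) * C + L * (T * C * A) - (v - 1) * (T * Q) * C) +
      T * N ^ 2 * C ^ 4 * X) :
    -X ≤ slow P A Q v := by
  have h0 : 0 ≤ T * N ^ 2 * C ^ 4 * (P * (1 / v - 1) + A * L - Q * (v - 1) + X) := by linarith
  have h1 := nonneg_of_mul_nonneg_right h0 (by positivity)
  have h2 := mul_le_mul_of_nonneg_left hL hA
  simp only [slow]
  linarith

/-- The cleared inequality above one, near the centre. -/
theorem clear_near (hT : 0 < T) (hN : 0 < N) (hC : 0 < C)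
    (h : 0 ≤ 2 * (T * P - T * Q) * (T * N ^ 2 * C ^ 4 * X) -
      N ^ 2 * C ^ 2 * (T * C * A - 2 * (T * Q) * C - (T * P - T * Q) * C) ^ 2) :
    (A - 2 * Q - (P - Q)) ^ 2 ≤ 2 * (P - Q) * X := by
  have h0 : 0 ≤ T ^ 2 * N ^ 2 * C ^ 4 * (2 * (P - Q) * X - (A - 2 * Q - (P - Q)) ^ 2) := by
    linear_combination h
  have := nonneg_of_mul_nonneg_right h0 (by positivity)
  linarith

/-- The cleared inequality above one. -/
theorem clear_up (hT : 0 < T) (hN : 0 < N) (hC : 0 < C) {m D : ℝ} (hm : m = A - 2 * Q)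
    (hD : D = P - Q)
    (h : 0 ≤ (T * P - T * Q) * (2 * (T * P - T * Q) * C + 4 * (T * C * A - 2 * (T * Q) * C)) *
        (T * N ^ 2 * C ^ 4 * X) -
      N ^ 2 * C ^ 2 * (T * C * A - 2 * (T * Q) * C - (T * P - T * Q) * C) ^ 2 *
        (T * C * A - 2 * (T * Q) * C + 2 * (T * P - T * Q) * C)) :
    (m - D) ^ 2 * (m + 2 * D) ≤ D * (2 * D + 4 * m) * X := by
  subst hm hD
  have h0 : 0 ≤ T ^ 3 * N ^ 2 * C ^ 5 * ((P - Q) * (2 * (P - Q) + 4 * (A - 2 * Q)) * X -
      (A - 2 * Q - (P - Q)) ^ 2 * (A - 2 * Q + 2 * (P - Q))) := by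
    linear_combination h
  have := nonneg_of_mul_nonneg_right h0 (by positivity)
  linarith

/-- The cleared inequality from one half to one. -/
theorem clear_mid (hT : 0 < T) (hN : 0 < N) (hC : 0 < C)
    (h : 0 ≤ 2 * (T * C * A - 3 * (T * Q) * C) * (T * N ^ 2 * C ^ 4 * X) -
      N ^ 2 * C ^ 3 * ((T * P + T * Q) * C - T * C * A) ^ 2) :
    (P - A + Q) ^ 2 ≤ 2 * (A - 3 * Q) * X := by
  have h0 : 0 ≤ T ^ 2 * N ^ 2 * C ^ 5 * (2 * (A - 3 * Q) * X - (P - A + Q) ^ 2) := by
    linear_combination h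
  have := nonneg_of_mul_nonneg_right h0 (by positivity)
  linarith

/-- The cleared inequality at the end of the room. -/
theorem clear_end (hT : 0 < T) (hN : 0 < N) (hC : 0 < C) (hA : 0 ≤ A) {x d u : ℝ} (hx : 1 ≤ x)
    (hd : 0 < d) (hu : u = x * d)
    (h : 0 ≤ (N ^ 2 * C ^ 3 * (1 / 6 * (T * P) * C * (d - 6 * u) * (4 * d + 2 * u) * d +
        T * C * A * (17917 / 10000 * u * (4 * d + 2 * u) + (u - d) * (d + 5 * u)) * d -
        T * Q * C * (6 * u - d) * u * (4 * d + 2 * u)) +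
      T * N ^ 2 * C ^ 4 * X * u * (4 * d + 2 * u) * d) * (d + 4 * u) ^ 2 -
      3 * t ^ 2 * (N ^ 2 * C ^ 3 * (T * C * A) * d ^ 4 * (u - d))) :
    -X ≤ slow P A Q (6 * x) := by
  subst hu
  have hx0 : 0 < x := by linarith
  have hpen : 0 ≤ 3 * t ^ 2 * (N ^ 2 * C ^ 3 * (T * C * A) * d ^ 4 * (x * d - d)) := by
    have : 0 ≤ x * d - d := by nlinarith
    positivity
  have h0 : 0 ≤ T * N ^ 2 * C ^ 4 * d ^ 3 * (d + 4 * (x * d)) ^ 2 *
      (1 / 6 * P * (1 - 6 * x) * (4 + 2 * x) +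
        A * (17917 / 10000 * (x * (4 + 2 * x)) + (x - 1) * (1 + 5 * x)) -
        Q * (6 * x - 1) * (x * (4 + 2 * x)) + X * (x * (4 + 2 * x))) := by
    linear_combination h + hpen
  have h1 := div_nonneg (nonneg_of_mul_nonneg_right h0 (by positivity))
    (show 0 ≤ x * (4 + 2 * x) by positivity)
  have e : (1 / 6 * P * (1 - 6 * x) * (4 + 2 * x) +
        A * (17917 / 10000 * (x * (4 + 2 * x)) + (x - 1) * (1 + 5 * x)) -
        Q * (6 * x - 1) * (x * (4 + 2 * x)) + X * (x * (4 + 2 * x))) / (x * (4 + 2 * x)) =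
      P * (1 / (6 * x) - 1) + A * (17917 / 10000 + (x - 1) * (1 + 5 * x) / (x * (4 + 2 * x))) -
        Q * (6 * x - 1) + X := by
    field_simp
  rw [e] at h1
  have hl := mul_le_mul_of_nonneg_left (add_le_add log_two_six.2 (pade_le_log hx0)) hA
  rw [← Real.log_mul (by norm_num) hx0.ne'] at hl
  simp only [slow]
  linarith

/-- Speeds from one half on, and the speeds two, six and the end of the room in their reciprocal. -/
theorem room_facts (hM : M ∈ Icc (28 : ℝ) 202) (hw : w ∈ Ioo (0 : ℝ) 1) (ht : t ∈ Ioo (0 : ℝ) 1)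
    (hs : s = 2 * w / (1 + w ^ 2)) (hc : c = (1 - w ^ 2) / (1 + w ^ 2)) {D m X x : ℝ}
    (hD : D = pC M s t - qC M s c t) (hm : m = aC M c - 2 * qC M s c t)
    (hX : X = roomC M s c t) (hx : x = xC M s c t) :
    0 ≤ D ∧ ((m - D) ^ 2 ≤ 2 * D * X ∨ (m - D) ^ 2 * (m + 2 * D) ≤ D * (2 * D + 4 * m) * X) ∧
    (pC M s t - aC M c + qC M s c t) ^ 2 ≤ 2 * (aC M c - 3 * qC M s c t) * X ∧
    -X ≤ slow (pC M s t) (aC M c) (qC M s c t) 2 ∧
    -X ≤ slow (pC M s t) (aC M c) (qC M s c t) 6 ∧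
    (1 ≤ x → -X ≤ slow (pC M s t) (aC M c) (qC M s c t) (6 * x)) := by
  have hM0 : (0 : ℝ) < M := by linarith [hM.1]
  have hC : 0 < 1 - w ^ 2 := by nlinarith [hw.1, hw.2]
  have ht' := Ioo_subset_Icc_self ht
  obtain ⟨eP', eQ', eA'⟩ := eval_terms (t := t) hM0.ne' hC.ne'
  have eW' := eval_W (t := t) hM0.ne' hC.ne'
  rw [← hs] at eP'
  rw [← hs, ← hc] at eQ' eW'
  rw [← hc] at eA'
  rw [← hX, show M ^ 2 * (1 + w ^ 2) ^ 6 * (1 - w ^ 2) ^ 4 =
    M ^ 2 * (1 + w ^ 2) ^ 4 * (1 + w ^ 2) ^ 2 * (1 - w ^ 2) ^ 4 by ring] at eW'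
  have b := inBox_of (lo := 0) (hi := 1) (den := 1) (w := w) hM (by simpa using hw.1.le)
    (by simpa using hw.2.le) ht'
  have eC' : eC.eval [M, w, t] = 1 - w ^ 2 := by simp [eC, Expr.eval]
  have eN' : eN.eval [M, w, t] = 1 + w ^ 2 := by simp [eN, Expr.eval]
  have eH' : eH.eval [M, w, t] = t := by simp [eH]
  have hT : 0 < M ^ 2 * (1 + w ^ 2) ^ 4 := by positivity
  have hN : (0 : ℝ) < 1 + w ^ 2 := by positivity
  have hA : 0 ≤ aC M c := by
    rw [aC, hc]
    exact div_nonneg (by unfold shadowC nuC; linarith) (by positivity)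
  refine ⟨?_, ?_, ?_, ?_, ?_, ?_⟩
  · have := nonneg_of_certify cert_gap b
    simp only [Expr.eval_sub, eP', eQ'] at this
    rw [hD]
    exact nonneg_of_mul_nonneg_right (b := pC M s t - qC M s c t) (by rw [mul_sub]; exact this) hT
  · rw [hD, hm]
    rcases le_total w (1 / 8) with h | h
    · left
      have := nonneg_of_certify cert_near (inBox_of (lo := 0) (hi := 1) (den := 8) (w := w) hM
        (by simp; exact hw.1.le) (by push_cast; linarith) ht')
      simp [eNear, eMu, Expr.eval, eP', eQ', eA', eW', eN', eC'] at this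
      exact clear_near hT hN hC (by linarith)
    · right
      have := nonneg_of_certify cert_up (inBox_of (lo := 1) (hi := 8) (den := 8) (w := w) hM
        (by push_cast; linarith) (by push_cast; linarith [hw.2]) ht')
      simp [eUp, eMu, Expr.eval, eP', eQ', eA', eW', eN', eC'] at this
      exact clear_up hT hN hC rfl rfl (by linarith)
  · have := nonneg_of_certify cert_mid b
    simp [eMid, Expr.eval, eP', eQ', eA', eW', eN', eC'] at this
    exact clear_mid hT hN hC (by linarith)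
  · have := nonneg_of_certify cert_two b
    simp [eTwo, Expr.eval, eP', eQ', eA', eW', eN', eC'] at this
    exact clear_slow hT hN hC hA log_two_six.1 (by norm_num at this ⊢; linarith)
  · have := nonneg_of_certify cert_six b
    simp [eSix, Expr.eval, eP', eQ', eA', eW', eN', eC'] at this
    exact clear_slow hT hN hC hA log_two_six.2 (by norm_num at this ⊢; linarith)
  · intro hx1
    have h := nonneg_of_certify cert_end b
    simp [eEnd, Expr.eval, eP', eQ', eA', eW', eN', eC', eH'] at h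
    have he := eval_x (M := M) (t := t) hC.ne'
    rw [← hs, ← hc, ← hx] at he
    have hd0 : 0 < eXd.eval [M, w, t] := by
      simp [eXd, Expr.eval, eC']
      positivity
    exact clear_end (t := t) (u := eXn.eval [M, w, t]) hT hN hC hA hx1 hd0
      (by rw [← he]; field_simp) (by linarith)

/-- The gauge of the speed with the terms in the displacement. -/
theorem core_ge (hM : M ∈ Icc (28 : ℝ) 202) (hs : s ∈ Ioo (0 : ℝ) 1) (ht : t ∈ Ioo (0 : ℝ) 1)
    (hc : 0 < c) (hc2 : c ^ 2 = 1 - s ^ 2) (hr : 0 < r)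
    (hroom : c ^ 2 ≤ r * ((1 - t) * (M * s + √M))) :
    -lossR M s c ≤ pC M s t * (r - 1) + aC M c * -Real.log r -
      qC M s c t * (1 / r - 1) + baseC M s t := by
  obtain ⟨hQ, hm3, hPA⟩ := coef_facts hM hs hc ht hc2
  set w := s / (1 + c) with hwd
  have hw : w ∈ Ioo (0 : ℝ) 1 := by
    refine ⟨div_pos hs.1 (by linarith), (div_lt_one (by linarith)).2 (by linarith [hs.2])⟩
  have hN : 1 + w ^ 2 = 2 / (1 + c) := by
    rw [hwd, div_pow, show s ^ 2 = 1 - c ^ 2 by linarith]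
    field_simp
    ring
  have es : s = 2 * w / (1 + w ^ 2) := by
    rw [hN, hwd]
    field_simp
  have ec : c = (1 - w ^ 2) / (1 + w ^ 2) := by
    rw [hN, show 1 - w ^ 2 = 2 - (1 + w ^ 2) by ring, hN]
    field_simp
    ring
  obtain ⟨hD, hup, hmid, h2, h6, hend⟩ := room_facts hM hw ht es ec rfl rfl rfl rfl
  have hA : 0 ≤ aC M c := by linarith
  suffices -roomC M s c t ≤ pC M s t * (r - 1) + aC M c * -Real.log r -
      qC M s c t * (1 / r - 1) by
    simp only [roomC] at this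
    linarith
  rcases le_total 1 r with h1 | h1
  · refine le_trans ?_ (up_reduce hQ h1)
    have hm : 0 < aC M c - 2 * qC M s c t := by linarith
    have hD' : 0 < pC M s t - qC M s c t := by
      refine lt_of_le_of_ne hD fun h0 => ?_
      rw [← h0] at hup
      rcases hup with h | h
      · nlinarith [pow_pos hm 2]
      · nlinarith [pow_pos hm 3]
    rcases hup with h | h
    · exact near_up hD' hm h1 h
    · exact up_ge hD' hm hr h
  rcases le_total (1 / 2) r with h3 | h3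
  · exact mid_ge hQ hm3 h3 h1 hmid
  have hv : 2 ≤ 1 / r := (le_div_iff₀ hr).2 (by linarith)
  have hu : √M ≤ (M + 7569 / 100) / (87 / 5) := by
    rw [le_div_iff₀ (by norm_num)]
    nlinarith [Real.sq_sqrt (show 0 ≤ M by linarith [hM.1]), sq_nonneg (√M - 87 / 10)]
  have hvx : 1 / r ≤ 6 * xC M s c t := by
    have := mul_le_mul_of_nonneg_left (show M * s + √M ≤ M * s + (M + 7569 / 100) / (87 / 5) by
      linarith) (mul_nonneg hr.le (sub_nonneg.2 ht.2.le))
    have h' : c ^ 2 ≤ r * ((1 - t) * (M * s + (M + 7569 / 100) / (87 / 5))) := by linarith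
    rw [div_le_iff₀ hr, xC, mul_div_assoc', div_mul_eq_mul_div, le_div_iff₀ (by positivity)]
    linarith
  have := slow_ge (X := roomC M s c t) hPA hA hv hvx h2 h6 hend
  rw [slow, one_div_one_div, one_div, Real.log_inv, ← one_div] at this
  linarith

end Vale.Agent.P237.Petty.Cor.Low
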