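import Vale.Agent.P100.Bernstein.Cert

/-!
# P237: the polynomials of the slope-free field in the orders from twenty-five to two hundred

With `M = p + 3`, `s = 2 w / (1 + w ^ 2)` and `t` all terms of the integrand are multiplied by
`M ^ 2 (1 + w ^ 2) ^ 4`; those below are the cleared margins over the loss, in `(M, w, t)`.
-/

namespace Vale.Agent.P237.Petty.Cor.Low

open Vale.Agent.P100.Bernstein

/-- The order, as `p + 3`. -/
def eM : Expr := .var 0

/-- The height. -/
def eH : Expr := .var 2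

/-- One plus the square of the half angle. -/
def eN : Expr := .add 1 (.pow (.var 1) 2)

/-- One minus the square of the half angle. -/
def eC : Expr := .sub 1 (.pow (.var 1) 2)

/-- Twice the half angle. -/
def eS : Expr := .mul 2 (.var 1)

/-- The Fisher weight. -/
def eNu : Expr := .add (.frac 6 5) (.mul (.frac 3 50) eM)

/-- The quadratic coefficient of the potential. -/
def eb : Expr := .add (.frac 1 25) (.mul (.frac 1 400) eM)

/-- The weight of the shadow. -/
def eB : Expr := .add (.mul 2 eNu) (.frac 123 125)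

/-- The displacement. -/
def eD : Expr := eH * eN - eS

/-- The coefficient of the speed. -/
def eP : Expr :=
  2 * eNu * (eM + .frac 36 25) * (eM * eN - eH * (eM * eS - .frac 36 25 * eD)) * eN ^ 3

/-- The linear coefficient of the potential. -/
def eK : Expr :=
  (eM + 1 + 2 * eNu * .frac (-11) 25 + .frac 1 2) * eN ^ 2 + .frac 61 100 * eM * eS ^ 2

/-- The slope of the potential. -/
def eQ₀ : Expr := eK + 2 * eb * eM * eD * eN

/-- The coefficient of the reciprocal of the speed. -/
def eQ : Expr := eM * eQ₀ * eC ^ 2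

/-- The coefficient of the logarithm, times the circle. -/
def eA : Expr := eB * eM ^ 2 * eN ^ 5

/-- The variable of the order in the loss. -/
def eZ : Expr := .frac 1 115 * eM - 1

/-- The loss, times the fourth power of the circle. -/
def eR : Expr :=
  ((.frac 68 10000 + .frac (-62) 10000 * eZ) * eN ^ 6 +
    (.frac (-683) 1000 + .frac 127 1000 * eZ) * eS ^ 2 * eN ^ 4 +
    (.frac 3641 100 + .frac 712 25 * eZ) * eS ^ 4 * eN ^ 2 + .frac (-3047) 100 * eS ^ 6) * eC ^ 4 +
    .frac 475 4 * eS ^ 8 * eC ^ 2 + .frac 404 25 * eS ^ 10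

/-- The terms in the displacement and the loss. -/
def eW : Expr :=
  (eb * eM ^ 3 * eS + eNu * (2 * .frac 36 25 * eM - (eM - 1) * .frac 1296 625) * eN) * eD ^ 2 *
      eN ^ 3 * eC ^ 4 +
    eM ^ 2 * (eS * (.frac 1 2 * eN ^ 2 + (eM + 2) * .frac 61 100 * eS ^ 2 -
      .frac 61 50 * eN ^ 2)) * eD * eN ^ 2 * eC ^ 4 +
    eM ^ 2 * eR

/-- The coefficient of the gauge above one. -/
def eMu : Expr := eA - 2 * eQ * eC

/-- Speeds above one. -/
def eUp : Expr :=
  (eP - eQ) * (2 * (eP - eQ) * eC + 4 * eMu) * eW -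
    eN ^ 2 * eC ^ 2 * (eMu - (eP - eQ) * eC) ^ 2 * (eMu + 2 * (eP - eQ) * eC)

/-- Speeds above one, near the centre. -/
def eNear : Expr := 2 * (eP - eQ) * eW - eN ^ 2 * eC ^ 2 * (eMu - (eP - eQ) * eC) ^ 2

/-- Speeds from one half to one. -/
def eMid : Expr :=
  2 * (eA - 3 * eQ * eC) * eW - eN ^ 2 * eC ^ 3 * ((eP + eQ) * eC - eA) ^ 2

/-- The speed one half. -/
def eTwo : Expr :=
  eN ^ 2 * eC ^ 3 * (.frac (-1) 2 * eP * eC + .frac 693 1000 * eA - eQ * eC) + eW

/-- The speed one sixth. -/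
def eSix : Expr :=
  eN ^ 2 * eC ^ 3 * (.frac (-5) 6 * eP * eC + .frac 17917 10000 * eA - 5 * eQ * eC) + eW

/-- The numerator of one sixth of the room, over `(w + 87 / 10) ^ 2` at `w ^ 2 = M`. -/
def eXn : Expr :=
  (1 - eH) * (.frac 87 5 * eM * eS + (eM + .frac 7569 100) * eN) * eN

/-- The denominator of one sixth of the room. -/
def eXd : Expr := .frac 522 5 * eC ^ 2

/-- The end of the room, with the multiplier of its being above six. -/
def eEnd : Expr :=
  (eN ^ 2 * eC ^ 3 * (.frac 1 6 * eP * eC * (eXd - 6 * eXn) * (4 * eXd + 2 * eXn) * eXd +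
      eA * (.frac 17917 10000 * eXn * (4 * eXd + 2 * eXn) + (eXn - eXd) * (eXd + 5 * eXn)) * eXd -
      eQ * eC * (6 * eXn - eXd) * eXn * (4 * eXd + 2 * eXn)) +
    eW * eXn * (4 * eXd + 2 * eXn) * eXd) * (eXd + 4 * eXn) ^ 2 -
    3 * eH ^ 2 * (eN ^ 2 * eC ^ 3 * eA * eXd ^ 4 * (eXn - eXd))

end Vale.Agent.P237.Petty.Cor.Low
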